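import Vale.Agent.P054.Lattice

namespace Vale.Agent.Results.P054.LatticeDense

open Vale.Agent.P054

theorem general {d : ℕ} (hd : 3 ≤ d) (R : ℕ) (s : ℝ) (hs : 0 < s)
    (P : Finset (EuclideanSpace ℝ (Fin d)))
    (hP : ∀ p ∈ P, ∀ q ∈ P, ∀ i, ∃ m : ℤ, |m| ≤ R ∧ p i - q i = s * m)
    (p : EuclideanSpace ℝ (Fin d)) (hp : p ∈ P) :
    1 / (C d * 2 ^ (2 * d - 2)) * ((P.card : ℝ) - 1) ^ 2 ≤
      (R : ℝ) ^ (2 * d - 2) * (((P.erase p).image fun q => dist p q).card : ℝ) := by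
  classical
  have hC : 0 < C d := by unfold C; positivity
  rcases (P.erase p).eq_empty_or_nonempty with he | ⟨q₀, hq₀⟩
  · have h1 : P.card = 1 := by
      have h := Finset.card_erase_add_one hp
      rw [he] at h; simpa using h.symm
    rw [h1, he]; simp
  have hR : 1 ≤ R := by
    obtain ⟨hne, hq⟩ := Finset.mem_erase.mp hq₀
    by_contra hR
    refine hne ?_
    ext i
    obtain ⟨m, hm, he⟩ := hP p hp q₀ hq i
    have hm0 : m = 0 := by
      have hR0 : (R : ℤ) = 0 := by omega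
      rw [hR0] at hm; exact abs_nonpos_iff.mp hm
    rw [hm0] at he; simp at he; linarith
  choose! m hm hme using fun q (hq : q ∈ P) => hP q hq p hp
  have hinj : Set.InjOn m (P.erase p : Finset _) := by
    intro a ha b hb h
    ext i
    have h1 := hme a (Finset.mem_of_mem_erase ha) i
    have h2 := hme b (Finset.mem_of_mem_erase hb) i
    rw [h] at h1; linarith
  set D := (P.erase p).image m with hDdef
  have hDcard : (D.card : ℝ) = (P.card : ℝ) - 1 := by
    rw [hDdef, Finset.card_image_of_injOn hinj]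
    have h := Finset.card_erase_add_one hp
    rw [← h]; push_cast; ring
  have hbox : D ⊆ box d R := by
    intro v hv
    obtain ⟨q, hq, rfl⟩ := Finset.mem_image.mp hv
    exact mem_box.mpr fun i => hm q (Finset.mem_of_mem_erase hq) i
  have hdist : ∀ q ∈ P.erase p,
      dist p q ^ 2 = s ^ 2 * ((∑ i, m q i ^ 2 : ℤ) : ℝ) := by
    intro q hq
    rw [dist_comm, EuclideanSpace.dist_eq, Real.sq_sqrt (by positivity)]
    push_cast
    rw [Finset.mul_sum]
    refine Finset.sum_congr rfl fun i _ => ?_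
    rw [Real.dist_eq, sq_abs, hme q (Finset.mem_of_mem_erase hq) i]; ring
  have himg : (D.image fun v => ∑ i, v i ^ 2).card
      ≤ ((P.erase p).image fun q => dist p q).card := by
    have hsub : ((D.image fun v => ∑ i, v i ^ 2).image fun n : ℤ => s ^ 2 * (n : ℝ)) ⊆
        ((P.erase p).image fun q => dist p q).image fun t => t ^ 2 := by
      intro x hx
      simp only [hDdef, Finset.mem_image] at hx ⊢
      obtain ⟨n, ⟨v, ⟨q, hq, rfl⟩, rfl⟩, rfl⟩ := hx
      exact ⟨_, ⟨q, hq, rfl⟩, hdist q hq⟩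
    have h := (Finset.card_le_card hsub).trans Finset.card_image_le
    rwa [Finset.card_image_of_injective _ (fun a b hab => by
      have : (a : ℝ) = b := mul_left_cancel₀ (pow_ne_zero 2 hs.ne') hab
      exact_mod_cast this)] at h
  have hv := norm_values hd hR D hbox
  rw [hDcard] at hv
  rw [div_mul_eq_mul_div, one_mul, div_le_iff₀ (by positivity)]
  calc ((P.card : ℝ) - 1) ^ 2 ≤ _ := hv
    _ ≤ (((P.erase p).image fun q => dist p q).card : ℝ) * (C d * (2 * R : ℝ) ^ (2 * d - 2)) := by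
        gcongr
    _ = _ := by rw [mul_pow]; ring

/-- For every `d ≥ 3`: pinned distinct-distance bound for (scaled, translated) integer point sets,
and hence the conjectured bound for all sufficiently dense such sets. -/
theorem result : ∀ d : ℕ, 3 ≤ d →
    (∃ c : ℝ, 0 < c ∧ ∀ (R : ℕ) (s : ℝ) (P : Finset (EuclideanSpace ℝ (Fin d))), 0 < s →
      (∀ p ∈ P, ∀ q ∈ P, ∀ i, ∃ m : ℤ, |m| ≤ R ∧ p i - q i = s * m) →
      ∀ p ∈ P, c * ((P.card : ℝ) - 1) ^ 2 ≤
        (R : ℝ) ^ (2 * d - 2) * (((P.erase p).image fun q => dist p q).card : ℝ)) ∧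
    (∀ A : ℝ, 0 < A → ∃ c : ℝ, 0 < c ∧
      ∀ (R : ℕ) (s : ℝ) (P : Finset (EuclideanSpace ℝ (Fin d))), 0 < s → 2 ≤ P.card →
      (R : ℝ) ≤ A * (P.card : ℝ) ^ ((1 : ℝ) / d) →
      (∀ p ∈ P, ∀ q ∈ P, ∀ i, ∃ m : ℤ, |m| ≤ R ∧ p i - q i = s * m) →
      ∀ p ∈ P, c * (P.card : ℝ) ^ ((2 : ℝ) / d) ≤
        (((P.erase p).image fun q => dist p q).card : ℝ)) := by
  intro d hd
  have hC : 0 < C d := by unfold C; positivity
  refine ⟨⟨1 / (C d * 2 ^ (2 * d - 2)), by positivity,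
    fun R s P hs hP p hp => general hd R s hs P hP p hp⟩, fun A hA => ?_⟩
  refine ⟨1 / (C d * 2 ^ (2 * d - 2)) / (4 * A ^ (2 * d - 2)), by positivity, ?_⟩
  intro R s P hs hn hRA hP p hp
  have h := general hd R s hs P hP p hp
  set K : ℝ := 1 / (C d * 2 ^ (2 * d - 2)) with hK
  set n : ℝ := (P.card : ℝ) with hn'
  set N : ℝ := (((P.erase p).image fun q => dist p q).card : ℝ) with hN
  have hK0 : 0 < K := by positivity
  have hn2 : (2 : ℝ) ≤ (P.card : ℝ) := by exact_mod_cast hn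
  have hn0 : (0 : ℝ) < n := by linarith
  have h4 : n ^ 2 ≤ 4 * (n - 1) ^ 2 := by nlinarith
  have hpw : (n ^ ((1 : ℝ) / d)) ^ (2 * d - 2) * n ^ ((2 : ℝ) / d) = n ^ 2 := by
    rw [← Real.rpow_natCast, ← Real.rpow_mul hn0.le, ← Real.rpow_add hn0, ← Real.rpow_natCast n 2]
    congr 1
    rw [Nat.cast_sub (by omega)]
    have : (d : ℝ) ≠ 0 := by positivity
    push_cast; field_simp; ring
  have hRb : (R : ℝ) ^ (2 * d - 2) * N ≤
      A ^ (2 * d - 2) * (n ^ ((1 : ℝ) / d)) ^ (2 * d - 2) * N := by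
    rw [← mul_pow]; gcongr
  have hmain : K * n ^ 2 ≤ 4 * (A ^ (2 * d - 2) * (n ^ ((1 : ℝ) / d)) ^ (2 * d - 2) * N) := by
    nlinarith [mul_le_mul_of_nonneg_left h4 hK0.le]
  rw [div_mul_eq_mul_div, div_le_iff₀ (by positivity)]
  rw [← hpw] at hmain
  have hpos : 0 < (n ^ ((1 : ℝ) / d)) ^ (2 * d - 2) := by positivity
  refine le_of_mul_le_mul_left (a := (n ^ ((1 : ℝ) / d)) ^ (2 * d - 2)) ?_ hpos
  nlinarith

end Vale.Agent.Results.P054.LatticeDense
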